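import Mathlib
import Vale.Agent.Lib.P162.Defs
import Vale.Agent.Lib.P162.RDefs
import Vale.Agent.Lib.P162.helper95.KmatBasic
import Vale.Agent.Lib.P162.helper36.MoveInj
import Vale.Agent.Lib.P162.helper23.ProdTv

namespace Vale.Agent.Lib.P162.H47

open Finset BigOperators

theorem unifInj_of_inj (h k : ℕ) (w : Fin k → ZMod (2 * h)) (hw : Function.Injective w) :
    unifInj h k w = 1 / ((2 * h).descFactorial k : ℝ) := by
  unfold unifInj
  rw [if_pos hw]

theorem unifInj_of_not_inj (h k : ℕ) (w : Fin k → ZMod (2 * h)) (hw : ¬ Function.Injective w) :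
    unifInj h k w = 0 := by
  unfold unifInj
  rw [if_neg hw]

/-- number of positions not occupied by `j` distinct cards -/
theorem card_off (h j : ℕ) [NeZero h] (v : Fin j → ZMod (2 * h)) (hv : Function.Injective v)
    (hj : j ≤ 2 * h) :
    ((univ.filter fun q : ZMod (2 * h) => ∀ i : Fin j, q ≠ v i).card : ℝ) = (2 * h : ℝ) - j := by
  classical
  have hset : (univ.filter fun q : ZMod (2 * h) => ∀ i : Fin j, q ≠ v i) = (univ.image v)ᶜ := by
    ext q
    simp only [Finset.mem_filter, Finset.mem_univ, true_and, Finset.mem_compl, Finset.mem_image,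
      not_exists]
    constructor
    · intro hq i hi; exact hq i hi.symm
    · intro hq i hi; exact hq i hi.symm
  rw [hset, Finset.card_compl, Finset.card_image_of_injective _ hv, Finset.card_univ,
    Fintype.card_fin, ZMod.card, Nat.cast_sub hj]
  push_cast
  ring

/-- Adding one card: the `l1` distance to uniform injective `(j+1)`-tuples is at most the defect
plus the `l1` distance for the `j` old cards. -/
theorem tv_step (h j : ℕ) [NeZero h] (t : ℕ) (z : Fin (j + 1) → ZMod (2 * h))
    (hz : Function.Injective z) :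
    ∑ y, |(Kmat h (j + 1) ^ t) z y - unifInj h (j + 1) y|
      ≤ defect h j t z + ∑ v, |(Kmat h j ^ t) (Fin.tail z) v - unifInj h j v| := by
  have hcard : j + 1 ≤ 2 * h := by
    have h0 := Fintype.card_le_of_injective z hz
    rwa [Fintype.card_fin, ZMod.card] at h0
  have hnj : (0 : ℝ) < (2 * h : ℝ) - j := by
    have h0 : ((j + 1 : ℕ) : ℝ) ≤ ((2 * h : ℕ) : ℝ) := by exact_mod_cast hcard
    push_cast at h0
    linarith
  have hD : (0 : ℝ) < ((2 * h).descFactorial j : ℝ) := by
    have h0 : (2 * h).descFactorial j ≠ 0 := by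
      rw [Ne, Nat.descFactorial_eq_zero_iff_lt]; omega
    exact_mod_cast Nat.pos_of_ne_zero h0
  have hDs : ((2 * h).descFactorial (j + 1) : ℝ)
      = ((2 * h : ℝ) - j) * ((2 * h).descFactorial j : ℝ) := by
    rw [Nat.descFactorial_succ, Nat.cast_mul, Nat.cast_sub (by omega)]
    push_cast
    ring
  have htail : Function.Injective (Fin.tail z) := by
    intro a b hab
    have h0 : z a.succ = z b.succ := hab
    exact Fin.succ_injective _ (hz h0)
  have h1 : ∑ y, |(Kmat h (j + 1) ^ t) z y - unifInj h (j + 1) y|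
      ≤ ∑ y, |(Kmat h (j + 1) ^ t) z y - resamp h j t z y|
        + ∑ y, |resamp h j t z y - unifInj h (j + 1) y| := by
    rw [← Finset.sum_add_distrib]
    exact Finset.sum_le_sum fun y _ => abs_sub_le _ _ _
  have h2 : ∑ y, |resamp h j t z y - unifInj h (j + 1) y|
      ≤ ∑ v, |(Kmat h j ^ t) (Fin.tail z) v - unifInj h j v| := by
    have hsplit : ∑ y : Fin (j + 1) → ZMod (2 * h), |resamp h j t z y - unifInj h (j + 1) y|
        = ∑ q : ZMod (2 * h), ∑ v : Fin j → ZMod (2 * h),
          |resamp h j t z (Fin.cons q v) - unifInj h (j + 1) (Fin.cons q v)| :=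
      H23.sum_fin_succ_fun j (fun y => |resamp h j t z y - unifInj h (j + 1) y|)
    rw [hsplit, Finset.sum_comm]
    apply Finset.sum_le_sum
    intro v _
    have hRpos : ∀ q : ZMod (2 * h), (∀ i : Fin j, q ≠ v i) →
        resamp h j t z (Fin.cons q v) = (Kmat h j ^ t) (Fin.tail z) v / ((2 * h : ℝ) - j) := by
      intro q hq
      have hq' : ∀ i : Fin j, (Fin.cons q v : Fin (j + 1) → ZMod (2 * h)) 0
          ≠ (Fin.cons q v : Fin (j + 1) → ZMod (2 * h)) i.succ := fun i => hq i
      rw [resamp_apply, if_pos hq', Fin.tail_cons]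
    have hRneg : ∀ q : ZMod (2 * h), ¬ (∀ i : Fin j, q ≠ v i) →
        resamp h j t z (Fin.cons q v) = 0 := by
      intro q hq
      have hq' : ¬ ∀ i : Fin j, (Fin.cons q v : Fin (j + 1) → ZMod (2 * h)) 0
          ≠ (Fin.cons q v : Fin (j + 1) → ZMod (2 * h)) i.succ := fun hc => hq (fun i => hc i)
      rw [resamp_apply, if_neg hq']
    by_cases hv : Function.Injective v
    · have hiff : ∀ q : ZMod (2 * h),
          Function.Injective (Fin.cons q v : Fin (j + 1) → ZMod (2 * h)) ↔ ∀ i : Fin j, q ≠ v i := by
        intro q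
        rw [Fin.cons_injective_iff]
        constructor
        · intro hq i hqi
          exact hq.1 ⟨i, hqi.symm⟩
        · intro hq
          refine ⟨?_, hv⟩
          rintro ⟨i, hi⟩
          exact hq i hi.symm
      have hterm : ∀ q : ZMod (2 * h),
          |resamp h j t z (Fin.cons q v) - unifInj h (j + 1) (Fin.cons q v)|
            = if ∀ i : Fin j, q ≠ v i then
                |(Kmat h j ^ t) (Fin.tail z) v - unifInj h j v| / ((2 * h : ℝ) - j) else 0 := by
        intro q
        by_cases hq : ∀ i : Fin j, q ≠ v i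
        · rw [if_pos hq, hRpos q hq, unifInj_of_inj h (j + 1) _ ((hiff q).mpr hq),
            unifInj_of_inj h j v hv, hDs]
          have e1 : (1 : ℝ) / (((2 * h : ℝ) - j) * ((2 * h).descFactorial j : ℝ))
              = (1 / ((2 * h).descFactorial j : ℝ)) / ((2 * h : ℝ) - j) := by
            rw [div_div, mul_comm]
          rw [e1, ← sub_div, abs_div, abs_of_pos hnj]
        · rw [if_neg hq, hRneg q hq,
            unifInj_of_not_inj h (j + 1) _ (fun hc => hq ((hiff q).mp hc)), sub_zero, abs_zero]
      rw [Finset.sum_congr rfl (fun q _ => hterm q), ← Finset.sum_filter, Finset.sum_const,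
        nsmul_eq_mul, card_off h j v hv (by omega)]
      generalize |(Kmat h j ^ t) (Fin.tail z) v - unifInj h j v| = A
      apply le_of_eq
      field_simp
    · have hQ : (Kmat h j ^ t) (Fin.tail z) v = 0 := by
        by_contra hne
        exact hv (H95.Kmat_pow_support h j (H36.move_injective h) (Fin.tail z) htail t v hne)
      have hterm : ∀ q : ZMod (2 * h),
          |resamp h j t z (Fin.cons q v) - unifInj h (j + 1) (Fin.cons q v)| = 0 := by
        intro q
        have hU0 : unifInj h (j + 1) (Fin.cons q v : Fin (j + 1) → ZMod (2 * h)) = 0 :=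
          unifInj_of_not_inj h (j + 1) _ (fun hc => hv ((Fin.cons_injective_iff.mp hc).2))
        by_cases hq : ∀ i : Fin j, q ≠ v i
        · rw [hRpos q hq, hU0, hQ, zero_div, sub_zero, abs_zero]
        · rw [hRneg q hq, hU0, sub_zero, abs_zero]
      rw [Finset.sum_eq_zero (fun q _ => hterm q)]
      exact abs_nonneg _
  rw [defect_apply]
  linarith

end Vale.Agent.Lib.P162.H47
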