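import Mathlib
import Vale.Agent.Lib.P162.Defs
import Vale.Agent.Lib.P162.Law

namespace Vale.Agent.Lib.P162.H47

open Finset BigOperators

/-- One-step decomposition of the tracked law: condition on the coins of the first shuffle. -/
theorem law_succ (h k : ℕ) [NeZero h] (T : ℕ) (x y : Fin k → ZMod (2 * h)) :
    trackedLaw h k (T + 1) x y
      = (∑ c : ZMod h → Bool, trackedLaw h k T (fun j => move h c (x j)) y) / 2 ^ h := by
  classical
  have hdef : ∀ (T' : ℕ) (x' : Fin k → ZMod (2 * h)), trackedLaw h k T' x' y
      = (∑ cs : Fin T' → ZMod h → Bool,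
          (if ∀ j, shuffles h T' cs (x' j) = y j then (1 : ℝ) else 0)) / 2 ^ (h * T') := by
    intro T' x'
    show ((univ.filter fun cs : Fin T' → ZMod h → Bool =>
      ∀ j, shuffles h T' cs (x' j) = y j).card : ℝ) / 2 ^ (h * T') = _
    rw [Finset.natCast_card_filter]
  have e : (∑ cs : Fin (T + 1) → ZMod h → Bool,
        (if ∀ j, shuffles h (T + 1) cs (x j) = y j then (1 : ℝ) else 0))
      = ∑ c : ZMod h → Bool, ∑ cs' : Fin T → ZMod h → Bool,
        (if ∀ j, shuffles h T cs' (move h c (x j)) = y j then (1 : ℝ) else 0) := by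
    rw [← Fintype.sum_prod_type']
    refine (Fintype.sum_equiv (Fin.consEquiv (fun _ : Fin (T + 1) => ZMod h → Bool)) _ _ ?_).symm
    rintro ⟨c, cs'⟩
    rfl
  have hsum : ∑ c : ZMod h → Bool, trackedLaw h k T (fun j => move h c (x j)) y
      = (∑ c : ZMod h → Bool, ∑ cs' : Fin T → ZMod h → Bool,
        (if ∀ j, shuffles h T cs' (move h c (x j)) = y j then (1 : ℝ) else 0)) / 2 ^ (h * T) := by
    rw [Finset.sum_div]
    exact Finset.sum_congr rfl (fun c _ => hdef T (fun j => move h c (x j)))
  rw [hdef (T + 1) x, e, hsum, div_div]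
  congr 1
  rw [← pow_add, Nat.mul_succ]

/-- The tracked law after `T` shuffles is the `T`-th power of the one-step kernel. -/
theorem law_eq_pow (h k : ℕ) [NeZero h] (T : ℕ) (x y : Fin k → ZMod (2 * h)) :
    trackedLaw h k T x y = (Kmat h k ^ T) x y := by
  classical
  induction T generalizing x with
  | zero =>
    have hK0 : (Kmat h k ^ 0) x y = (1 : Matrix (Fin k → ZMod (2 * h)) (Fin k → ZMod (2 * h)) ℝ) x y := by
      rw [pow_zero]
    rw [hK0]
    show ((univ.filter fun cs : Fin 0 → ZMod h → Bool =>
      ∀ j, shuffles h 0 cs (x j) = y j).card : ℝ) / 2 ^ (h * 0) = _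
    have hc : Fintype.card (Fin 0 → ZMod h → Bool) = 1 := by
      rw [Fintype.card_eq_one_iff]
      exact ⟨fun i => i.elim0, fun f => funext fun i => i.elim0⟩
    rw [Nat.mul_zero, pow_zero, div_one]
    by_cases hxy : x = y
    · have hf : (univ.filter fun cs : Fin 0 → ZMod h → Bool => ∀ j, shuffles h 0 cs (x j) = y j)
          = univ := by
        apply Finset.filter_true_of_mem
        intro cs _ j
        rw [← hxy]
        rfl
      rw [hf, Finset.card_univ, hc, Nat.cast_one, hxy, Matrix.one_apply_eq]
    · have hf : (univ.filter fun cs : Fin 0 → ZMod h → Bool => ∀ j, shuffles h 0 cs (x j) = y j)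
          = ∅ := by
        apply Finset.filter_false_of_mem
        intro cs _ hj
        apply hxy
        funext j
        exact hj j
      rw [hf, Finset.card_empty, Nat.cast_zero, Matrix.one_apply_ne hxy]
  | succ T ih =>
    rw [law_succ, pow_succ', Matrix.mul_apply]
    have hK : ∀ u, Kmat h k x u
        = (∑ c : ZMod h → Bool, if (fun j => move h c (x j)) = u then (1 : ℝ) else 0) / 2 ^ h := by
      intro u
      show ((univ.filter fun c : ZMod h → Bool => ∀ j, move h c (x j) = u j).card : ℝ) / 2 ^ h = _
      rw [Finset.natCast_card_filter]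
      congr 1
      refine Finset.sum_congr rfl fun c _ => ?_
      have hiff : (∀ j, move h c (x j) = u j) ↔ (fun j => move h c (x j)) = u := by
        constructor
        · intro hj; funext j; exact hj j
        · intro hu j; rw [← hu]
      by_cases hc : (fun j => move h c (x j)) = u
      · rw [if_pos hc, if_pos (hiff.mpr hc)]
      · rw [if_neg hc, if_neg (fun hh => hc (hiff.mp hh))]
    have hterm : ∀ u, Kmat h k x u * (Kmat h k ^ T) u y
        = (∑ c : ZMod h → Bool,
            (if (fun j => move h c (x j)) = u then trackedLaw h k T u y else 0)) / 2 ^ h := by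
      intro u
      rw [hK u, ← ih u, div_mul_eq_mul_div, Finset.sum_mul]
      congr 1
      refine Finset.sum_congr rfl fun c _ => ?_
      by_cases hc : (fun j => move h c (x j)) = u
      · rw [if_pos hc, if_pos hc, one_mul]
      · rw [if_neg hc, if_neg hc, zero_mul]
    have hsum : ∑ u, Kmat h k x u * (Kmat h k ^ T) u y
        = ∑ u, (∑ c : ZMod h → Bool,
            (if (fun j => move h c (x j)) = u then trackedLaw h k T u y else 0)) / 2 ^ h :=
      Finset.sum_congr rfl (fun u _ => hterm u)
    rw [hsum, ← Finset.sum_div]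
    congr 1
    rw [Finset.sum_comm]
    refine Finset.sum_congr rfl fun c _ => ?_
    rw [Finset.sum_ite_eq univ (fun j => move h c (x j)) (fun u => trackedLaw h k T u y),
      if_pos (Finset.mem_univ _)]

end Vale.Agent.Lib.P162.H47
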