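import Mathlib
import Vale.Agent.Lib.P162.Defs
import Vale.Agent.Lib.P162.RDefs
import Vale.Agent.Lib.P162.CVDefs
import Vale.Agent.Lib.P162.helper93.Gap
import Vale.Agent.Lib.P162.helper36.MoveInj
import Vale.Agent.Lib.P162.helper23.ProdTv

/-!
Thorp shuffle, two-walker kernel: the support of its powers started from injective
configurations, and the symmetry of its powers under the exchange of the two walkers
(second copy of pool job P162-CV3).
-/

namespace Vale.Agent.Lib.P162.H47CV

open Finset BigOperators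

/-- A tuple with a new first entry is injective iff the new entry avoids the old ones and the
old ones are injective. -/
theorem cons_inj_iff {α : Type*} {j : ℕ} (a : α) (x : Fin j → α) :
    Function.Injective (Fin.cons a x : Fin (j + 1) → α)
      ↔ (∀ i, a ≠ x i) ∧ Function.Injective x := by
  rw [Fin.cons_injective_iff]
  constructor
  · rintro ⟨h1, h2⟩
    exact ⟨fun i hi => h1 ⟨i, hi.symm⟩, h2⟩
  · rintro ⟨h1, h2⟩
    exact ⟨fun ⟨i, hi⟩ => h1 i hi.symm, h2⟩

/-- Every tuple of length j + 2 is two entries followed by a tuple of length j. -/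
theorem exists_cons_cons {α : Type*} {j : ℕ} (u : Fin (j + 2) → α) :
    ∃ (a b : α) (x : Fin j → α), u = Fin.cons a (Fin.cons b x) := by
  refine ⟨u 0, Fin.tail u 0, Fin.tail (Fin.tail u), ?_⟩
  have h1 : Fin.tail u = Fin.cons (Fin.tail u 0) (Fin.tail (Fin.tail u)) :=
    (Fin.cons_self_tail (Fin.tail u)).symm
  rw [← h1]
  exact (Fin.cons_self_tail u).symm

/-- A sum over tuples of length j + 2 as a sum over the two first entries and the rest. -/
theorem sum_cons_cons {α : Type*} [Fintype α] [DecidableEq α] (j : ℕ)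
    (f : (Fin (j + 2) → α) → ℝ) :
    ∑ y : Fin (j + 2) → α, f y
      = ∑ a : α, ∑ b : α, ∑ x : Fin j → α, f (Fin.cons a (Fin.cons b x)) := by
  rw [H23.sum_fin_succ_fun]
  refine Finset.sum_congr rfl (fun a _ => ?_)
  rw [H23.sum_fin_succ_fun]

/-- One step of the chain started from an injective configuration ends in an injective
configuration. -/
theorem Kmat_step_inj (h j : ℕ) [NeZero h] (a q : ZMod (2 * h)) (x v : Fin j → ZMod (2 * h))
    (hinj : Function.Injective (Fin.cons a x : Fin (j + 1) → ZMod (2 * h)))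
    (hne : Kmat h (j + 1) (Fin.cons a x) (Fin.cons q v) ≠ 0) :
    Function.Injective (Fin.cons q v : Fin (j + 1) → ZMod (2 * h)) := by
  have hne' : stepProb h (j + 1) (Fin.cons a x) (Fin.cons q v) ≠ 0 := hne
  obtain ⟨c, hc⟩ := H93.H93_step_witness h (j + 1) _ _ hne'
  have hcomp : (Fin.cons q v : Fin (j + 1) → ZMod (2 * h))
      = move h c ∘ (Fin.cons a x : Fin (j + 1) → ZMod (2 * h)) := by
    funext i
    exact (hc i).symm
  rw [hcomp]
  exact (H36.move_injective h c).comp hinj

theorem Qpow_support (h j : ℕ) [NeZero h] (t : ℕ) (p p' : ZMod (2 * h)) (w : Fin j → ZMod (2 * h))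
    (hz : Function.Injective (Fin.cons p w : Fin (j + 1) → ZMod (2 * h)))
    (hz' : Function.Injective (Fin.cons p' w : Fin (j + 1) → ZMod (2 * h)))
    (q q' : ZMod (2 * h)) (v : Fin j → ZMod (2 * h))
    (hne : (Qmat h j ^ t) (Fin.cons p (Fin.cons p' w)) (Fin.cons q (Fin.cons q' v)) ≠ 0) :
    Function.Injective v ∧ (∀ i, q ≠ v i) ∧ (∀ i, q' ≠ v i) := by
  induction t generalizing q q' v with
  | zero =>
    rw [pow_zero, Matrix.one_apply] at hne
    have heq : (Fin.cons p (Fin.cons p' w) : Fin (j + 2) → ZMod (2 * h))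
        = Fin.cons q (Fin.cons q' v) := by
      by_contra hcon
      exact hne (if_neg hcon)
    have h1 := Fin.cons_inj.mp heq
    have h2 := Fin.cons_inj.mp h1.2
    rw [← h1.1, ← h2.1, ← h2.2]
    exact ⟨((cons_inj_iff p w).mp hz).2, ((cons_inj_iff p w).mp hz).1,
      ((cons_inj_iff p' w).mp hz').1⟩
  | succ t ih =>
    rw [pow_succ, Matrix.mul_apply] at hne
    obtain ⟨u, -, hu⟩ := Finset.exists_ne_zero_of_sum_ne_zero hne
    have hu1 : (Qmat h j ^ t) (Fin.cons p (Fin.cons p' w)) u ≠ 0 := left_ne_zero_of_mul hu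
    have hu2 : Qmat h j u (Fin.cons q (Fin.cons q' v)) ≠ 0 := right_ne_zero_of_mul hu
    obtain ⟨a, b, x, rfl⟩ := exists_cons_cons u
    obtain ⟨hx, ha, hb⟩ := ih a b x hu1
    rw [Qmat_cons] at hu2
    have hk1 : Kmat h (j + 1) (Fin.cons a x) (Fin.cons q v) ≠ 0 := by
      intro h0
      apply hu2
      rw [h0, zero_mul, zero_div]
    have hk2 : Kmat h (j + 1) (Fin.cons b x) (Fin.cons q' v) ≠ 0 := by
      intro h0
      apply hu2
      rw [h0, mul_zero, zero_div]
    have hi1 := Kmat_step_inj h j a q x v ((cons_inj_iff a x).mpr ⟨ha, hx⟩) hk1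
    have hi2 := Kmat_step_inj h j b q' x v ((cons_inj_iff b x).mpr ⟨hb, hx⟩) hk2
    exact ⟨((cons_inj_iff q v).mp hi1).2, ((cons_inj_iff q v).mp hi1).1,
      ((cons_inj_iff q' v).mp hi2).1⟩

theorem Qpow_swap (h j : ℕ) [NeZero h] (t : ℕ) (p p' q q' : ZMod (2 * h))
    (w v : Fin j → ZMod (2 * h)) :
    (Qmat h j ^ t) (Fin.cons p (Fin.cons p' w)) (Fin.cons q (Fin.cons q' v))
      = (Qmat h j ^ t) (Fin.cons p' (Fin.cons p w)) (Fin.cons q' (Fin.cons q v)) := by
  induction t generalizing p p' w with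
  | zero =>
    rw [pow_zero, Matrix.one_apply, Matrix.one_apply]
    by_cases hc : (Fin.cons p (Fin.cons p' w) : Fin (j + 2) → ZMod (2 * h))
        = Fin.cons q (Fin.cons q' v)
    · have h1 := Fin.cons_inj.mp hc
      have h2 := Fin.cons_inj.mp h1.2
      have hc' : (Fin.cons p' (Fin.cons p w) : Fin (j + 2) → ZMod (2 * h))
          = Fin.cons q' (Fin.cons q v) := by
        rw [h1.1, h2.1, h2.2]
      rw [if_pos hc, if_pos hc']
    · have hc' : ¬ (Fin.cons p' (Fin.cons p w) : Fin (j + 2) → ZMod (2 * h))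
          = Fin.cons q' (Fin.cons q v) := by
        intro hc'
        apply hc
        have h1 := Fin.cons_inj.mp hc'
        have h2 := Fin.cons_inj.mp h1.2
        rw [h1.1, h2.1, h2.2]
      rw [if_neg hc, if_neg hc']
  | succ t ih =>
    rw [pow_succ', Matrix.mul_apply, Matrix.mul_apply, sum_cons_cons, sum_cons_cons]
    rw [Finset.sum_comm]
    refine Finset.sum_congr rfl (fun b _ => ?_)
    refine Finset.sum_congr rfl (fun a _ => ?_)
    refine Finset.sum_congr rfl (fun x _ => ?_)
    rw [ih a b x, Qmat_cons, Qmat_cons,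
      mul_comm (Kmat h (j + 1) (Fin.cons p w) (Fin.cons a x))]

end Vale.Agent.Lib.P162.H47CV
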