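import Mathlib
import Vale.Agent.Lib.P162.Defs
import Vale.Agent.Lib.P162.helper36.MoveInj

namespace Vale.Agent.Lib.P162.H47

open Finset BigOperators

/-- The uniform law on injective `k`-tuples of positions is stationary for the `k`-card kernel:
every shuffle (fixed coins) is a bijection of the positions. -/
theorem unif_stationary (h k : ℕ) [NeZero h] (y : Fin k → ZMod (2 * h)) :
    ∑ z, unifInj h k z * Kmat h k z y = unifInj h k y := by
  classical
  have hK : ∀ z, Kmat h k z y
      = (∑ c : ZMod h → Bool, if (∀ j, move h c (z j) = y j) then (1 : ℝ) else 0) / 2 ^ h := by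
    intro z
    show ((univ.filter fun c : ZMod h → Bool => ∀ j, move h c (z j) = y j).card : ℝ) / 2 ^ h = _
    rw [Finset.natCast_card_filter]
  have hU : ∀ w : Fin k → ZMod (2 * h), unifInj h k w
      = if Function.Injective w then 1 / ((2 * h).descFactorial k : ℝ) else 0 := fun w => rfl
  have key : ∀ c : ZMod h → Bool,
      ∑ z : Fin k → ZMod (2 * h),
          unifInj h k z * (if (∀ j, move h c (z j) = y j) then (1 : ℝ) else 0)
        = unifInj h k y := by
    intro c
    have hinj := H36.move_injective h c
    have hbij : Function.Bijective (move h c) := hinj.bijective_of_finite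
    let e : ZMod (2 * h) ≃ ZMod (2 * h) := Equiv.ofBijective _ hbij
    have he : ∀ p, e p = move h c p := fun p => rfl
    rw [Finset.sum_eq_single (fun j => e.symm (y j))]
    · have h1 : ∀ j, move h c (e.symm (y j)) = y j := by
        intro j
        rw [← he]
        exact e.apply_symm_apply (y j)
      rw [if_pos h1, mul_one, hU, hU]
      have hiff : Function.Injective (fun j => e.symm (y j)) ↔ Function.Injective y := by
        constructor
        · intro hi a b hab
          apply hi
          show e.symm (y a) = e.symm (y b)
          rw [hab]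
        · intro hi a b hab
          exact hi (e.symm.injective hab)
      by_cases hy : Function.Injective y
      · rw [if_pos hy, if_pos (hiff.mpr hy)]
      · rw [if_neg hy, if_neg (fun hh => hy (hiff.mp hh))]
    · intro z _ hz
      rw [if_neg, mul_zero]
      intro hall
      apply hz
      funext j
      rw [← hall j, ← he]
      exact (e.symm_apply_apply (z j)).symm
    · intro hne
      exact absurd (Finset.mem_univ _) hne
  have hz : ∀ z, unifInj h k z * Kmat h k z y
      = (∑ c : ZMod h → Bool,
          unifInj h k z * (if (∀ j, move h c (z j) = y j) then (1 : ℝ) else 0)) / 2 ^ h := by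
    intro z
    rw [hK, ← mul_div_assoc, Finset.mul_sum]
  have hsum : ∑ z, unifInj h k z * Kmat h k z y
      = ∑ z, (∑ c : ZMod h → Bool,
          unifInj h k z * (if (∀ j, move h c (z j) = y j) then (1 : ℝ) else 0)) / 2 ^ h :=
    Finset.sum_congr rfl (fun z _ => hz z)
  have hsum2 : ∑ c : ZMod h → Bool, ∑ z : Fin k → ZMod (2 * h),
          unifInj h k z * (if (∀ j, move h c (z j) = y j) then (1 : ℝ) else 0)
      = ∑ _c : ZMod h → Bool, unifInj h k y :=
    Finset.sum_congr rfl (fun c _ => key c)
  rw [hsum, ← Finset.sum_div, Finset.sum_comm, hsum2, Finset.sum_const, Finset.card_univ]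
  have hcard : Fintype.card (ZMod h → Bool) = 2 ^ h := by
    rw [Fintype.card_fun, Fintype.card_bool, ZMod.card]
  rw [hcard, nsmul_eq_mul]
  generalize unifInj h k y = u
  have h2 : ((2 ^ h : ℕ) : ℝ) = (2 : ℝ) ^ h := by norm_num
  rw [h2, mul_div_assoc, mul_comm, div_mul_cancel₀]
  positivity

end Vale.Agent.Lib.P162.H47
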