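import Mathlib
import Vale.Agent.Lib.P162.Defs

/-!
# P162: pool job P162-I, the l1 distance between uniform and uniform injective `k`-tuples
-/

namespace Vale.Agent.Lib.P162.H47

open Finset BigOperators

/-- Weierstrass-type lower bound for the falling factorial. -/
theorem descFactorial_lower (n : ℕ) : ∀ k : ℕ, k ≤ n →
    (n : ℝ) ^ k * (2 * n - k * (k - 1)) ≤ 2 * n * (n.descFactorial k : ℝ) := by
  intro k
  induction k with
  | zero => intro _; simp
  | succ k ih =>
    intro hk
    have hk' : k ≤ n := by omega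
    have ih' := ih hk'
    have e : ((n.descFactorial (k + 1) : ℕ) : ℝ) = ((n : ℝ) - k) * (n.descFactorial k : ℝ) := by
      rw [Nat.descFactorial_succ, Nat.cast_mul, Nat.cast_sub hk']
    rw [e]
    push_cast
    have hnk : (0 : ℝ) ≤ (n : ℝ) - k := sub_nonneg.2 (Nat.cast_le.2 hk')
    have hn0 : (0 : ℝ) ≤ (n : ℝ) ^ k := by positivity
    have hnonneg : 0 ≤ (n : ℝ) ^ k * ((k : ℝ) ^ 2 * (k - 1)) := by
      rcases Nat.eq_zero_or_pos k with h0 | hpos
      · subst h0; simp
      · have h1 : (1 : ℝ) ≤ k := by exact_mod_cast hpos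
        have h2 : (0 : ℝ) ≤ (k : ℝ) - 1 := by linarith
        positivity
    have hdiff : ((n : ℝ) - k) * ((n : ℝ) ^ k * (2 * n - k * (k - 1)))
        - (n : ℝ) ^ (k + 1) * (2 * n - (k + 1) * ((k + 1) - 1))
        = (n : ℝ) ^ k * ((k : ℝ) ^ 2 * (k - 1)) := by ring
    have h1 : (n : ℝ) ^ (k + 1) * (2 * n - (k + 1) * ((k + 1) - 1))
        ≤ ((n : ℝ) - k) * ((n : ℝ) ^ k * (2 * n - k * (k - 1))) := by linarith
    calc (n : ℝ) ^ (k + 1) * (2 * n - (k + 1) * ((k + 1) - 1))
        ≤ ((n : ℝ) - k) * ((n : ℝ) ^ k * (2 * n - k * (k - 1))) := h1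
      _ ≤ ((n : ℝ) - k) * (2 * n * (n.descFactorial k : ℝ)) :=
          mul_le_mul_of_nonneg_left ih' hnk
      _ = 2 * n * (((n : ℝ) - k) * (n.descFactorial k : ℝ)) := by ring

/-- The number of injective `k`-tuples of residues mod `n`. -/
theorem card_injective (n k : ℕ) [NeZero n] :
    (univ.filter fun y : Fin k → ZMod n => Function.Injective y).card = n.descFactorial k := by
  classical
  rw [← Fintype.card_subtype, Fintype.card_congr (Equiv.subtypeInjectiveEquivEmbedding _ _),
    Fintype.card_embedding_eq, ZMod.card, Fintype.card_fin]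

/-- Pool job P162-I: the `l1` distance between the uniform law on all `k`-tuples and the
uniform law on injective `k`-tuples of positions is at most `k (k - 1) / (2 h)`. -/
theorem unif_tv (h k : ℕ) [NeZero h] :
    ∑ y : Fin k → ZMod (2 * h), |(1 / (2 * h : ℝ)) ^ k - unifInj h k y|
      ≤ (k : ℝ) * (k - 1) / (2 * h : ℝ) := by
  classical
  have hh : 0 < h := Nat.pos_of_ne_zero (NeZero.ne h)
  have hhR : (0 : ℝ) < (h : ℝ) := by exact_mod_cast hh
  have hnR : (0 : ℝ) < 2 * (h : ℝ) := by positivity
  have hP : (0 : ℝ) < (2 * (h : ℝ)) ^ k := by positivity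
  have hc : (1 / (2 * (h : ℝ))) ^ k = 1 / (2 * (h : ℝ)) ^ k := one_div_pow _ _
  have hcardU : (Fintype.card (Fin k → ZMod (2 * h)) : ℝ) = (2 * (h : ℝ)) ^ k := by
    rw [Fintype.card_fun, ZMod.card, Fintype.card_fin]
    push_cast
    ring
  have hcardI := card_injective (2 * h) k
  rcases Nat.eq_zero_or_pos ((2 * h).descFactorial k) with hD | hD
  · -- no injective tuples
    have hlt : 2 * h < k := Nat.descFactorial_eq_zero_iff_lt.1 hD
    have hz : ∀ y : Fin k → ZMod (2 * h), unifInj h k y = 0 := by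
      intro y
      unfold unifInj
      rw [hD]
      simp
    simp only [hz, sub_zero]
    rw [hc, abs_of_pos (by positivity), Finset.sum_const, Finset.card_univ, nsmul_eq_mul, hcardU,
      mul_one_div_cancel hP.ne', le_div_iff₀ hnR]
    have h1 : (2 * (h : ℝ)) + 1 ≤ k := by exact_mod_cast hlt
    nlinarith
  · have hkn : k ≤ 2 * h := by
      by_contra hcon
      exact hD.ne' (Nat.descFactorial_eq_zero_iff_lt.2 (not_le.1 hcon))
    have hDR : (0 : ℝ) < ((2 * h).descFactorial k : ℝ) := by exact_mod_cast hD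
    have hDle : ((2 * h).descFactorial k : ℝ) ≤ (2 * (h : ℝ)) ^ k := by
      have := Nat.descFactorial_le_pow (2 * h) k
      exact_mod_cast this
    have hlow := descFactorial_lower (2 * h) k hkn
    push_cast at hlow
    rw [← Finset.sum_filter_add_sum_filter_not univ
      (fun y : Fin k → ZMod (2 * h) => Function.Injective y)]
    have hs1 : ∑ y ∈ univ.filter (fun y : Fin k → ZMod (2 * h) => Function.Injective y),
        |(1 / (2 * (h : ℝ))) ^ k - unifInj h k y|
        = 1 - ((2 * h).descFactorial k : ℝ) / (2 * (h : ℝ)) ^ k := by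
      have hterm : ∀ y ∈ univ.filter (fun y : Fin k → ZMod (2 * h) => Function.Injective y),
          |(1 / (2 * (h : ℝ))) ^ k - unifInj h k y|
          = 1 / ((2 * h).descFactorial k : ℝ) - 1 / (2 * (h : ℝ)) ^ k := by
        intro y hy
        have hinj := (Finset.mem_filter.1 hy).2
        unfold unifInj
        rw [if_pos hinj, hc, abs_sub_comm, abs_of_nonneg]
        rw [sub_nonneg]
        exact one_div_le_one_div_of_le hDR hDle
      rw [Finset.sum_congr rfl hterm, Finset.sum_const, hcardI, nsmul_eq_mul]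
      field_simp
    have hs2 : ∑ y ∈ univ.filter (fun y : Fin k → ZMod (2 * h) => ¬ Function.Injective y),
        |(1 / (2 * (h : ℝ))) ^ k - unifInj h k y|
        = 1 - ((2 * h).descFactorial k : ℝ) / (2 * (h : ℝ)) ^ k := by
      have hterm : ∀ y ∈ univ.filter (fun y : Fin k → ZMod (2 * h) => ¬ Function.Injective y),
          |(1 / (2 * (h : ℝ))) ^ k - unifInj h k y| = 1 / (2 * (h : ℝ)) ^ k := by
        intro y hy
        have hninj := (Finset.mem_filter.1 hy).2
        unfold unifInj
        rw [if_neg hninj, sub_zero, hc, abs_of_pos (by positivity)]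
      have hcardN : ((univ.filter
          (fun y : Fin k → ZMod (2 * h) => ¬ Function.Injective y)).card : ℝ)
          = (2 * (h : ℝ)) ^ k - ((2 * h).descFactorial k : ℝ) := by
        have hsum := Finset.card_filter_add_card_filter_not
          (s := (univ : Finset (Fin k → ZMod (2 * h)))) (fun y => Function.Injective y)
        rw [hcardI, Finset.card_univ] at hsum
        have h2 : ((2 * h).descFactorial k : ℝ) + ((univ.filter
            (fun y : Fin k → ZMod (2 * h) => ¬ Function.Injective y)).card : ℝ)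
            = (2 * (h : ℝ)) ^ k := by
          rw [← hcardU]
          exact_mod_cast hsum
        linarith
      rw [Finset.sum_congr rfl hterm, Finset.sum_const, nsmul_eq_mul, hcardN]
      field_simp
    rw [hs1, hs2]
    have e1 : (1 - ((2 * h).descFactorial k : ℝ) / (2 * (h : ℝ)) ^ k
        + (1 - ((2 * h).descFactorial k : ℝ) / (2 * (h : ℝ)) ^ k))
          * (2 * (h : ℝ) * (2 * (h : ℝ)) ^ k)
        = 2 * (2 * (h : ℝ)) * (2 * (h : ℝ)) ^ k
          - 2 * (2 * (h : ℝ)) * ((2 * h).descFactorial k : ℝ) := by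
      field_simp
      ring
    have e2 : ((k : ℝ) * (k - 1) / (2 * (h : ℝ))) * (2 * (h : ℝ) * (2 * (h : ℝ)) ^ k)
        = (k : ℝ) * (k - 1) * (2 * (h : ℝ)) ^ k := by
      field_simp
    have key : (1 - ((2 * h).descFactorial k : ℝ) / (2 * (h : ℝ)) ^ k
        + (1 - ((2 * h).descFactorial k : ℝ) / (2 * (h : ℝ)) ^ k))
          * (2 * (h : ℝ) * (2 * (h : ℝ)) ^ k)
        ≤ ((k : ℝ) * (k - 1) / (2 * (h : ℝ))) * (2 * (h : ℝ) * (2 * (h : ℝ)) ^ k) := by
      rw [e1, e2]
      nlinarith [hlow]
    exact le_of_mul_le_mul_right key (by positivity)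

end Vale.Agent.Lib.P162.H47
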